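import Vale.Agent.P314.Main

namespace Vale.Agent.Results.P314.A_full

open Vale.Agent.P314 Computability Turing

universe u

theorem result :
    ∃ (dim : ℕ → ℕ → ℕ) (B : ∀ n s : ℕ, Fin n → Matrix (Fin (dim n s)) (Fin (dim n s)) Bool),
      (∀ (F : Type u) [Field F] (n s : ℕ), IsHittingSet n s [ofBool F (B n s)]) ∧
      ∀ (F : Type u) [Field F] (e : Encoding F Bool) (binary : Bool),
        ∃ (M : TM2ComputableAux Γ' Γ') (p : Polynomial ℕ), (∀ k, Finite (M.tm.Γ k)) ∧
          ∀ n s : ℕ, Nonempty (TM2OutputsInTime M.tm
            ((encIn binary n s).map M.inputAlphabet.symm)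
            (some ((encList (encPoint e) [ofBool F (B n s)]).map M.outputAlphabet.symm))
            (p.eval (n + s))) :=
  ⟨fun n s => side n s * side n s, fun n s => hitMat n (side n s), fun F _ n s => hitting F n s,
    fun _ _ e binary => machine e binary⟩

end Vale.Agent.Results.P314.A_full
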